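import Vale.Agent.P260Z.Ob.Reg.Walls.A

/-!
# P260, obstruction: the connections on the walls
-/

noncomputable section
set_option linter.unusedSectionVars false
variable [Vale.Agent.P215Z.K.Geom]
namespace Vale.Agent.P215Z.K
open MvPolynomial Classical

namespace WB

theorem isFace_refl (p : Pt) : IsFace p p := fun _ => .inl rfl

theorem isFace_face {p τ : Pt} (h : IsFace p τ) {k : Fin 4} (hk : Odd (p k)) (c : Bool) :
    IsFace (face p k c) τ := fun j => by
  by_cases e : j = k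
  · subst e
    have h1 : p j = τ j := (h j).elim id fun a => by
      have := a.2
      have h2 := a.1
      rw [Int.odd_iff] at hk h2
      rw [abs_eq (by norm_num)] at this
      omega
    refine .inr ⟨h1 ▸ hk, ?_⟩
    rw [face_self, ← h1]
    split_ifs <;> simp
  · rw [face_ne e]
    exact h j

theorem exists_V1 {n : ℕ} (hn : 0 < n) {i : Kl} {p : Pt} (hp : p ∈ KdQ n) (h : p ∉ V0 i n) :
    ∃ τ d, Is3 n τ d ∧ τ ∉ V0 i n ∧ IsFace p τ := by
  obtain ⟨τ, d, h1, h2⟩ := exists_is3 hn hp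
  refine ⟨τ, d, h1, fun e => h ?_, h2⟩
  exact (cx_V0 i n).isFace e h2

theorem holL_chain {α G : Type} [Group G] {U U' : α → α → G} {R : α → α → Prop}
    (h : ∀ x y, R x y → U x y = U' x y) : ∀ l : List α, l.IsChain R → holL U l = holL U' l
  | [], _ => rfl
  | [_], _ => rfl
  | a :: b :: l, hl => by
    rw [List.isChain_cons_cons] at hl
    rw [holL, holL, h a b hl.1, holL_chain h (b :: l) hl.2]

theorem holN_congr' {α β G : Type} [Group G] {U : α → α → G} {U' : β → β → G} {x : ℕ → α}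
    {y : ℕ → β} (n : ℕ) (h : ∀ k < n, U (x k) (x (k + 1)) = U' (y k) (y (k + 1))) :
    holN U x n = holN U' y n := by
  induction n with
  | zero => rfl
  | succ n ih => rw [holN, holN, ih fun k hk => h k (by omega), h n (by omega)]

theorem holN_pot {α G : Type} [Group G] {U : α → α → G} {x : ℕ → α} (μ : ℕ → G) (n : ℕ)
    (h : ∀ k < n, U (x k) (x (k + 1)) = (μ k)⁻¹ * μ (k + 1)) : holN U x n = (μ 0)⁻¹ * μ n := by
  induction n with
  | zero => simp [holN]
  | succ n ih => rw [holN, ih fun k hk => h k (by omega), h n (by omega), mul_assoc,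
      mul_inv_cancel_left]

/-! ### cubes and their neighbours -/

/-- the neighbouring cube -/
def nb (q : Pt) (d : Fin 4) (c : Bool) : Pt := face q d c

theorem nb_nb (q : Pt) (d : Fin 4) (c : Bool) : nb (nb q d c) d (!c) = q := by
  funext j
  by_cases e : j = d
  · subst e
    cases c <;> simp [nb, face_self]
  · rw [nb, face_ne e, nb, face_ne e]

theorem face_nb (q : Pt) (d : Fin 4) (c : Bool) :
    face (cell (nb q d c)) d (!c) = face (cell q) d c := by
  funext j
  by_cases e : j = d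
  · subst e
    cases c <;> simp [nb, face_self, cell] <;> ring
  · rw [face_ne e, face_ne e, cell, cell, nb, face_ne e]

theorem face_cell_inj {q q' : Pt} {d : Fin 4} {c : Bool}
    (h : face (cell q) d c = face (cell q') d c) : q = q' := by
  funext j
  have := congrFun h j
  by_cases e : j = d
  · subst e
    rw [face_self, face_self, cell, cell] at this
    split_ifs at this <;> omega
  · rw [face_ne e, face_ne e, cell, cell] at this
    omega

theorem oX_face (X : Finset Pt) (q : Pt) (d : Fin 4) : oX X (face (cell q) d true) d =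
    (if q ∈ X then 1 else 0) - if nb q d true ∈ X then 1 else 0 := by
  have h1 : (∃ q' ∈ X, face (cell q) d true = face (cell q') d true) ↔ q ∈ X :=
    ⟨fun ⟨q', a, b⟩ => face_cell_inj b ▸ a, fun a => ⟨q, a, rfl⟩⟩
  have h2 : (∃ q' ∈ X, face (cell q) d true = face (cell q') d false) ↔ nb q d true ∈ X :=
    ⟨fun ⟨q', a, b⟩ => face_cell_inj ((face_nb q d true).trans b) ▸ a,
      fun a => ⟨_, a, (face_nb q d true).symm⟩⟩
  simp only [oX, h1, h2]

theorem oX_zero (X : Finset Pt) {τ : Pt} {d : Fin 4} (h : ¬ ∃ q, τ = face (cell q) d true) :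
    oX X τ d = 0 := by
  rw [oX, if_neg fun ⟨q, _, b⟩ => h ⟨q, b⟩,
    if_neg fun ⟨q, _, b⟩ => h ⟨nb q d false, b.trans (face_nb q d false).symm⟩, sub_zero]

theorem face_mem {X : Set Pt} {q : Pt} (h : q ∈ X) (d : Fin 4) (c : Bool) :
    face (cell q) d c ∈ Kof X := ⟨q, h, fun j => by
  by_cases e : j = d
  · rw [e, face_self]
    split_ifs <;> simp
  · simp [face_ne e]⟩

variable {N : ℕ}

theorem mem_Qc {l : Lg} {q : Pt} :
    q ∈ Qc N l ↔ ∀ j, N * org l j ≤ q j ∧ q j < N * org l j + 3 * N := by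
  refine forall_congr' fun j => ?_
  have h : (org l + 3) j = org l j + 3 := rfl
  rw [h, mul_add, mul_comm (N : ℤ) 3]

theorem Qc_disj {l l' : Lg} {q : Pt} (h : q ∈ Qc N l) (h' : q ∈ Qc N l') : l = l' := by
  have h1 : ∀ l l' : Lg, l = l' ∨ ∃ j, (org l + 3) j ≤ org l' j ∨ (org l' + 3) j ≤ org l j :=
    Gx.org_gap3
  exact (h1 l l').resolve_right (Coh.Outx.not_both h h')

/-- the neighbours across the fibre faces are not in the chart -/
theorem nb_fib {l : Lg} {q : Pt} (h : q ∈ Qc N l) {d : Fin 4} {c : Bool} (h' : nb q d c ∉ Qc N l)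
    (hd : d = kap l.1 ∨ d = 3) : nb q d c ∉ Uc N := fun hU => by
  have h0 : (0 : ℤ) ≤ N := Int.natCast_nonneg N
  rw [mem_Qc] at h h'
  have h1 : ¬ (N * org l d ≤ nb q d c d ∧ nb q d c d < N * org l d + 3 * N) := fun e =>
    h' fun j => by
      by_cases hj : j = d
      · exact hj ▸ e
      · rw [nb, face_ne hj]
        exact h j
  have h2 := h d
  rw [nb, face_self] at h1
  rcases hd with rfl | rfl
  · have h3 : ∀ (l : Lg) (c : Bool), ∃ v ∈ caves, (∀ j, j ≠ kap l.1 → v.1 j ≤ org l j ∧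
        org l j + 3 ≤ v.2 j) ∧ v.1 (kap l.1) + 1 ≤ v.2 (kap l.1) ∧
        if c then v.1 (kap l.1) = org l (kap l.1) + 3 else v.2 (kap l.1) = org l (kap l.1) := by
      rintro l (_ | _)
      · obtain ⟨c, h1, h2, h3, h4⟩ := Gx.end_lo l
        exact ⟨c, h1, h4, h3, h2⟩
      · obtain ⟨c, h1, h2, h3, h4⟩ := Gx.end_hi l
        exact ⟨c, h1, h4, h3, h2⟩
    obtain ⟨v, hv, a, b, e⟩ := h3 l c
    refine hU.2 v hv fun j => ?_
    by_cases hj : j = kap l.1
    · have b' := mul_le_mul_of_nonneg_left b h0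
      rw [hj, nb, face_self]
      cases c <;> simp only [if_true, if_false, Bool.false_eq_true] at e h1 ⊢ <;> rw [e] at b' ⊢ <;>
        simp only [mul_add] at b' ⊢ <;> omega
    · rw [nb, face_ne hj]
      have a1 := mul_le_mul_of_nonneg_left (a j hj).1 h0
      have a2 := mul_le_mul_of_nonneg_left (a j hj).2 h0
      constructor <;> linarith [(h j).1, (h j).2]
  · have h3 : ∀ l : Lg, org l 3 = 0 := Gx.org_three
    have h4 := hU.1 3
    rw [nb, face_self, Gx.hi_three, Pi.zero_apply] at h4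
    rw [h3] at h1
    exact h1 ⟨h4.1, by linarith [h4.2]⟩

theorem prm_fib : ∀ (l : Lg) (d : Fin 4), (prm l d ≠ kap l.1 ∧ prm l d ≠ 3) ↔
    if l.2 then ¬ (d = kap l.1 ∨ d = 3) else (d = kap l.1 ∨ d = 3) := by
  rintro ⟨i, _ | _⟩
  · exact (by decide : ∀ d : Fin 4, ((Equiv.swap 0 1 * Equiv.swap 2 3 : Equiv.Perm (Fin 4)) d ≠ 1 ∧
      (Equiv.swap 0 1 * Equiv.swap 2 3 : Equiv.Perm (Fin 4)) d ≠ 3) ↔ (d = 1 ∨ d = 3))
  · exact (by decide : ∀ d : Fin 4, (d ≠ 1 ∧ d ≠ 3) ↔ ¬ (d = 1 ∨ d = 3))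

/-- boundary faces of the cube of a leg, in standard coordinates -/
theorem exists_std {l : Lg} {q : Pt} (h : q ∈ Qc N l) {d : Fin 4} {c : Bool}
    (h' : nb q d c ∉ Qc N l) : ∃ τ, dm N l τ = face (cell q) d c ∧ Is3 (3 * N) τ (prm l d) := by
  rw [mem_Qc] at h h'
  have h1 : ¬ (N * org l d ≤ nb q d c d ∧ nb q d c d < N * org l d + 3 * N) := fun e =>
    h' fun j => by
      by_cases hj : j = d
      · exact hj ▸ e
      · rw [nb, face_ne hj]
        exact h j
  refine ⟨fun j => face (cell q) d c ((prm l).symm j) - 2 * N * org l ((prm l).symm j), ?_, ?_,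
    fun j hj => ?_⟩
  · funext j
    simp [dm]
  · have h2 := h d
    rw [nb, face_self] at h1
    simp only [Equiv.symm_apply_apply, face_self, cell, mul_assoc]
    split_ifs at h1 ⊢ <;> push_cast <;> omega
  · have h2 : (prm l).symm j ≠ d := fun e => hj (by rw [← e, Equiv.apply_symm_apply])
    have h3 := h ((prm l).symm j)
    simp only [face_ne h2, cell, mul_assoc, Int.odd_iff]
    push_cast
    omega

theorem dm_inj (l : Lg) : Function.Injective (dm N l) := fun p p' h =>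
  (affP_bijective (prm l) _).1 ((dm_eq N l p).symm.trans (h.trans (dm_eq N l p')))

/-- the wall of a leg in the chart -/
def Vl (N : ℕ) (l : Lg) : Set Pt := dm N l '' V0 l.1 (3 * N)

theorem mem_Vl {l : Lg} {τ : Pt} : dm N l τ ∈ Vl N l ↔ τ ∈ V0 l.1 (3 * N) :=
  (dm_inj l).mem_set_image

theorem Vl_iff {l : Lg} {q : Pt} (h : q ∈ Qc N l) {d : Fin 4} {c : Bool} (h' : nb q d c ∉ Qc N l)
    (hU : nb q d c ∈ Uc N) : face (cell q) d c ∈ Vl N l ↔ l.2 = true := by
  obtain ⟨τ, e, h3⟩ := exists_std h h'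
  have h4 : ¬ (d = kap l.1 ∨ d = 3) := fun a => nb_fib h h' a hU
  rw [← e, mem_Vl, is3_V0 h3, prm_fib]
  cases l.2 <;> simp only [h4] <;> simp

/-- the weight of a cube at one of its faces -/
def Wt (N : ℕ) (q τ : Pt) : Prop := q ∈ Uc N ∧ ∀ l, q ∈ Qc N l → (τ ∈ Vl N l ↔ l.2 = true)

theorem Wt_nb (hN : 0 < N) {q : Pt} {d : Fin 4} {c : Bool} (hS : face (cell q) d c ∉ KS N)
    (h : Wt N q (face (cell q) d c)) : Wt N (nb q d c) (face (cell q) d c) := by
  refine ⟨?_, fun l hl => ?_⟩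
  · by_contra hU
    refine hS ⟨⟨?_, ?_⟩, face_nb q d c ▸ face_mem (X := (Uc N)ᶜ) hU d (!c)⟩
    · by_cases a : ∀ i, q ∉ Qc N (i, true)
      · exact face_mem (X := Rc N) ⟨h.1, a⟩ d c
      · push Not at a
        obtain ⟨i, a⟩ := a
        obtain ⟨τ, b, e⟩ := (h.2 _ a).2 rfl
        exact e ▸ dm_V0 hN _ b
    · by_cases a : ∀ i, q ∉ Qc N (i, false)
      · exact face_mem (X := Bc N) ⟨h.1, a⟩ d c
      · push Not at a
        obtain ⟨i, a⟩ := a
        obtain ⟨τ, e, h3⟩ := exists_std a fun b : nb q d c ∈ _ => hU (Coh.Qc_subset _ b)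
        have h4 : τ ∉ V0 i (3 * N) := fun b =>
          Bool.false_ne_true ((h.2 _ a).1 (e ▸ mem_Vl.2 b))
        exact e ▸ (dm_V1 hN (i, false) h3 h4 (isFace_refl τ)).1
  · by_cases a : q ∈ Qc N l
    · exact h.2 l a
    · rw [← face_nb q d c]
      exact Vl_iff hl (by rwa [nb_nb]) (by rw [nb_nb]; exact h.1)

theorem mem_Rf {q : Pt} : q ∈ Rf N ↔ q ∈ Rc N := by
  rw [Rf, Finset.mem_filter, Fintype.mem_piFinset]
  exact ⟨fun h => h.2, fun h => ⟨fun j => by simpa using h.1.1 j, h⟩⟩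

theorem mem_Bf {q : Pt} : q ∈ Bf N ↔ q ∈ Bc N := by
  rw [Bf, Finset.mem_filter, Fintype.mem_piFinset]
  exact ⟨fun h => h.2, fun h => ⟨fun j => by simpa using h.1.1 j, h⟩⟩

/-- the cubes of a leg -/
def Qf (N : ℕ) (l : Lg) : Finset Pt := (Q0 (3 * N)).image (affC (prm l) ((N : ℤ) • org l))

theorem mem_Qf {l : Lg} {q : Pt} : q ∈ Qf N l ↔ q ∈ Qc N l := by
  simp only [Qf, Finset.mem_image, Q0, Fintype.mem_piFinset, Finset.mem_Ico, mem_Qc]
  constructor
  · rintro ⟨r, h, rfl⟩ j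
    have := h (prm l j)
    simp only [affC, Pi.smul_apply, smul_eq_mul]
    push_cast at this
    omega
  · refine fun h => ⟨fun j => q ((prm l).symm j) - N * org l ((prm l).symm j), fun j => ?_, ?_⟩
    · have := h ((prm l).symm j)
      push_cast
      omega
    · funext j
      simp [affC]

variable {O : Type} [CommRing O] [Algebra ℚ O]

theorem half (N : ℕ) (q τ : Pt) (a b : O) :
    (if q ∈ Rf N then a else 0) - (if q ∈ Bf N then b else 0) -
      ∑ l : Lg, Letters.sg l • (if q ∈ Qf N l then (if τ ∈ Vl N l then a else b) else 0) =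
    if Wt N q τ then a - b else 0 := by
  simp only [mem_Rf, mem_Bf, mem_Qf]
  by_cases h : ∃ l, q ∈ Qc N l
  · obtain ⟨l, h⟩ := h
    have hU := Coh.Qc_subset l h
    have h1 : Wt N q τ ↔ (τ ∈ Vl N l ↔ l.2 = true) :=
      ⟨fun e => e.2 l h, fun e => ⟨hU, fun l' h' => Qc_disj h h' ▸ e⟩⟩
    have h2 : ∀ s, (q ∈ Uc N ∧ ∀ i, q ∉ Qc N (i, s)) ↔ l.2 ≠ s := fun s =>
      ⟨fun e e' => e.2 l.1 (e' ▸ h), fun e => ⟨hU, fun i h' => e (by rw [Qc_disj h h'])⟩⟩
    rw [Finset.sum_eq_single l (fun l' _ e => by rw [if_neg fun h' => e (Qc_disj h' h), smul_zero])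
      (by simp), if_pos h]
    simp only [h1, show q ∈ Rc N ↔ l.2 ≠ true from h2 true, show q ∈ Bc N ↔ l.2 ≠ false from h2 false,
      Letters.sg]
    cases l.2 <;> by_cases e : τ ∈ Vl N l <;> simp [e]
    ring
  · push Not at h
    have h1 : Wt N q τ ↔ q ∈ Uc N := ⟨fun e => e.1, fun e => ⟨e, fun l h' => absurd h' (h l)⟩⟩
    have h2 : ∀ s, (q ∈ Uc N ∧ ∀ i, q ∉ Qc N (i, s)) ↔ q ∈ Uc N := fun s =>
      ⟨fun e => e.1, fun e => ⟨e, fun i => h _⟩⟩
    simp only [h1, show q ∈ Rc N ↔ _ from h2 true, show q ∈ Bc N ↔ _ from h2 false, h, if_false,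
      smul_zero, Finset.sum_const_zero]
    split_ifs <;> simp

theorem chain (hN : 0 < N) (f g : Pt → Fin 4 → O)
    (h : ∀ q d, face (cell q) d true ∈ KS N → f (face (cell q) d true) d = g (face (cell q) d true) d) :
    Bd (Rf N) f - Bd (Bf N) g =
      ∑ l : Lg, Letters.sg l • Bd (Qf N l) fun τ d => if τ ∈ Vl N l then f τ d else g τ d := by
  obtain ⟨S1, h1⟩ := exists_bd_finset (Rf N)
  obtain ⟨S2, h2⟩ := exists_bd_finset (Bf N)
  choose S3 h3 using fun l => exists_bd_finset (Qf N l)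
  set S := S1 ∪ S2 ∪ Finset.univ.biUnion S3
  have h4 : ∀ l F, Bd (O := O) (Qf N l) F = ∑ x ∈ S, oX (Qf N l) x.1 x.2 • F x.1 x.2 := fun l F =>
    Bd_eq_sum (Qf N l) _ S fun τ d e => Finset.mem_union_right _
      (Finset.mem_biUnion.2 ⟨l, Finset.mem_univ l, (h3 l τ d).2 e⟩)
  simp only [h4, Finset.smul_sum]
  rw [Bd_eq_sum _ f S fun τ d e => by simp [S, h1, e], Bd_eq_sum _ g S fun τ d e => by simp [S, h2, e],
    Finset.sum_comm, ← Finset.sum_sub_distrib]
  refine Finset.sum_congr rfl fun ⟨τ, d⟩ _ => ?_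
  by_cases e : ∃ q, τ = face (cell q) d true
  · obtain ⟨q, rfl⟩ := e
    have k1 := half N q (face (cell q) d true) (f (face (cell q) d true) d) (g (face (cell q) d true) d)
    have k2 := half N (nb q d true) (face (cell q) d true) (f (face (cell q) d true) d)
      (g (face (cell q) d true) d)
    have k3 : (if Wt N q (face (cell q) d true) then f (face (cell q) d true) d -
        g (face (cell q) d true) d else 0) = if Wt N (nb q d true) (face (cell q) d true) then
        f (face (cell q) d true) d - g (face (cell q) d true) d else 0 := by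
      by_cases a : face (cell q) d true ∈ KS N
      · simp [h q d a]
      · refine if_congr ⟨Wt_nb hN a, fun b => ?_⟩ rfl rfl
        rw [← face_nb q d true] at a b ⊢
        simpa only [nb_nb] using Wt_nb hN a b
    simp only [oX_face, sub_smul, ite_smul, one_smul, zero_smul, smul_sub, Finset.sum_sub_distrib]
    linear_combination k1 - k2 + k3
  · simp only [oX_zero _ e, zero_smul, smul_zero, Finset.sum_const_zero, sub_zero]

/-! ### the extra curve -/

/-- points of the plane of the extra curve -/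
def pl (i : Kl) (g : Gp) : Pt := fun j => if j = kap i then g.1 else if j = 3 then g.2 else 1

theorem kap_ne (i : Kl) : kap i ≠ 3 := Gx.kap_ne3 i

theorem pl_kap (i : Kl) (g : Gp) : pl i g (kap i) = g.1 := if_pos rfl

theorem pl_three (i : Kl) (g : Gp) : pl i g 3 = g.2 := by simp [pl, (kap_ne i).symm]

theorem pl_not (i : Kl) (n : ℕ) (g : Gp) : pl i g ∉ V0 i n := fun ⟨_, j, a, b, c⟩ => by
  rw [pl, if_neg a, if_neg b] at c
  omega

theorem face_pl1 (i : Kl) (x y : ℤ) (c : Bool) :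
    face (pl i (x, y)) (kap i) c = pl i (if c then x + 1 else x - 1, y) := by
  funext j
  by_cases e : j = kap i
  · rw [e, face_self, pl_kap, pl_kap]
  · simp [face_ne e, pl, e]

theorem face_pl3 (i : Kl) (x y : ℤ) (c : Bool) :
    face (pl i (x, y)) 3 c = pl i (x, if c then y + 1 else y - 1) := by
  funext j
  by_cases e : j = 3
  · rw [e, face_self, pl_three, pl_three]
  · simp [face_ne e, pl, e]

section
variable {i : Kl} {C : F1 O} (h3 : ∀ g, C (pl i g) 3 = 0)
  (h1 : ∀ x y, C (pl i (x, y)) (kap i) = C (pl i (x, 0)) (kap i))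

include h3 in
theorem step_ver (x y : ℤ) : step C (pl i (x, y)) (pl i (x, y + 1)) = 1 := by
  by_cases e : Odd y
  · have := step_out C (p := pl i (x, y)) (k := 3) true (by rwa [pl_three])
    rw [face_pl3, if_pos rfl, F1b.inn_eq, h3, Fm.step_zero, inv_one] at this
    exact this
  · have := step_in C (p := pl i (x, y + 1)) (k := 3) false
      (by rw [pl_three, Int.odd_iff] at *; omega)
    rw [face_pl3, if_neg Bool.false_ne_true, add_sub_cancel_right, F1b.inn_eq, h3, Fm.step_zero] at this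
    exact this

include h1 in
theorem step_hor (x y : ℤ) : step C (pl i (x, y)) (pl i (x + 1, y)) =
    step C (pl i (x, 0)) (pl i (x + 1, 0)) := by
  by_cases e : Odd x
  · have := fun y => step_out C (p := pl i (x, y)) (k := kap i) true (by rwa [pl_kap])
    simp only [face_pl1, if_true, F1b.inn_eq] at this
    rw [this, this, h1]
  · have := fun y => step_in C (p := pl i (x + 1, y)) (k := kap i) false
      (by rw [pl_kap, Int.odd_iff] at *; omega)
    simp only [face_pl1, if_neg Bool.false_ne_true, add_sub_cancel_right, F1b.inn_eq] at this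
    rw [this, this, h1]

include h1 h3 in
theorem exists_pot : ∃ μ : ℤ → (MM O)ˣ, ∀ g g' : Gp, 0 ≤ g.1 → 0 ≤ g'.1 → GAdj g g' →
    step C (pl i g) (pl i g') = (μ g.1)⁻¹ * μ g'.1 := by
  set μ : ℤ → (MM O)ˣ := fun x => holN (step C) (fun k : ℕ => pl i (k, 0)) x.toNat with hμ
  have k1 : ∀ x y : ℤ, 0 ≤ x → step C (pl i (x, y)) (pl i (x + 1, y)) = (μ x)⁻¹ * μ (x + 1) := by
    intro x y hx
    obtain ⟨m, rfl⟩ := Int.eq_ofNat_of_zero_le hx
    rw [step_hor h1]
    have : μ (m + 1) = μ m * step C (pl i (m, 0)) (pl i (m + 1, 0)) := rfl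
    rw [this, inv_mul_cancel_left]
  refine ⟨μ, fun ⟨x, y⟩ g' a b c => ?_⟩
  rcases c with rfl | rfl | rfl | rfl
  · simpa using k1 x y a
  · have := k1 (x - 1) y (by simpa using b)
    rw [step_symm, sub_add_cancel] at this
    simpa using congrArg (·⁻¹) this
  · simpa using step_ver h3 x y
  · have := step_ver h3 x (y - 1)
    rw [step_symm, sub_add_cancel] at this
    simpa using this

end

/-- the boundary of the square, from `(1, 0)` to `(1, 0)` -/
def wO (n k : ℕ) : Gp := if k + 1 ≤ 8 * n then bdG (2 * n) (k + 1) else (1, 0)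

theorem wO_nn (n : ℕ) (k : ℕ) : 0 ≤ (wO n k).1 := by
  unfold wO bdG
  split_ifs <;> simp only <;> omega

theorem wO_adj {n k : ℕ} (hk : k < 8 * n) : GAdj (wO n k) (wO n (k + 1)) := by
  unfold wO bdG GAdj
  split_ifs <;> simp only [Prod.mk_add_mk, Prod.mk_sub_mk, Prod.mk.injEq] <;> omega

theorem hol_O {i : Kl} {C : F1 O} (h3 : ∀ g, C (pl i g) 3 = 0)
    (h1 : ∀ x y, C (pl i (x, y)) (kap i) = C (pl i (x, 0)) (kap i)) {n : ℕ} (hn : 0 < n) :
    holN (step C) (oP n i) (8 * n) = 1 := by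
  obtain ⟨μ, h⟩ := exists_pot h3 h1
  rw [holN_pot (fun k => μ (wO n k).1) _ fun k hk => h _ _ (wO_nn n k) (wO_nn n _) (wO_adj hk)]
  have a : (wO n 0).1 = 1 := by
    rw [wO, if_pos (by omega), bdG, if_pos (by omega)]
    rfl
  have b : (wO n (8 * n)).1 = 1 := by rw [wO, if_neg (by omega)]
  rw [a, b, inv_mul_cancel]

end WB

open WB

namespace Setup
variable (s : Setup)

variable {O : Type} [CommRing O] [Algebra ℚ O] {a : Ideal O} {A B : F1 O} (hp : s.Pair a A B)

theorem wb_pos : 0 < s.n := Nat.mul_pos (by norm_num) s.D.hN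

theorem wb_R (l : Lg) {p : Pt} (h : p ∈ V0 l.1 s.n) :
    p ∈ affP (prm l) ((s.D.N : ℤ) • org l) ⁻¹' KR s.D.N :=
  show affP _ _ p ∈ _ from dm_eq s.D.N l p ▸ dm_V0 s.D.hN l h

theorem wb_B (l : Lg) {p : Pt} (hq : p ∈ KdQ s.n) (h : p ∉ V0 l.1 s.n) :
    p ∈ affP (prm l) ((s.D.N : ℤ) • org l) ⁻¹' KB s.D.N := by
  obtain ⟨τ, d, h1, h2, h3⟩ := exists_V1 s.wb_pos hq h
  exact show affP _ _ p ∈ _ from dm_eq s.D.N l p ▸ (dm_V1 s.D.hN l h1 h2 h3).1

omit [Algebra ℚ O] in
theorem wb_AlA (A B : F1 O) (l : Lg) {p : Pt} (h : p ∈ V0 l.1 s.n) :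
    s.Al A B l p = pull (prm l) ((s.D.N : ℤ) • org l) A p := funext fun _ => if_pos h

omit [Algebra ℚ O] in
theorem wb_AlB (A B : F1 O) (l : Lg) {p : Pt} (h : p ∉ V0 l.1 s.n) :
    s.Al A B l p = pull (prm l) ((s.D.N : ℤ) • org l) B p := funext fun _ => if_neg h

include hp

theorem Al_eq_B (l : Lg) {τ p : Pt} {d : Fin 4} (h : Is3 s.n τ d) (hτ : τ ∉ V0 l.1 s.n)
    (hf : IsFace p τ) (i : Fin 4) (hi : Odd (p i)) :
    s.Al A B l p i = pull (prm l) ((s.D.N : ℤ) • org l) B p i := by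
  by_cases e : p ∈ V0 l.1 s.n
  · rw [s.wb_AlA A B l e, pull, pull, hp.agree _ (dm_eq s.D.N l p ▸ (dm_V1 s.D.hN l h hτ hf).2 e) _
      ((odd_affP _ _ _ _).2 (by rwa [Equiv.apply_symm_apply]))]
  · rw [s.wb_AlB A B l e]

theorem Al_good (l : Lg) : Good1 (KdQ s.n) (s.Al A B l) := by
  refine ⟨fun p hq i j hi hj => ?_, fun p hq k c i hk hi hik => ?_⟩
  · by_cases e : p ∈ V0 l.1 s.n
    · rw [s.wb_AlA A B l e]
      exact (hp.gA.pull _ _).indep p (s.wb_R l e) i j hi hj
    · rw [s.wb_AlB A B l e]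
      exact (hp.gB.pull _ _).indep p (s.wb_B l hq e) i j hi hj
  · by_cases e : p ∈ V0 l.1 s.n
    · rw [s.wb_AlA A B l e, s.wb_AlA A B l (cx_V0 _ _ p e k c hk)]
      exact (hp.gA.pull _ _).compat p (s.wb_R l e) k c i hk hi hik
    · obtain ⟨τ, d, h1, h2, h3⟩ := exists_V1 s.wb_pos hq e
      rw [s.wb_AlB A B l e, s.Al_eq_B hp l h1 h2 (isFace_face h3 hk c) i (by rwa [face_ne hik])]
      exact (hp.gB.pull _ _).compat p (s.wb_B l hq e) k c i hk hi hik

theorem Al_in (l : Lg) : In1 (KdQ s.n) a (s.Al A B l) := fun p hq i hi => by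
  by_cases e : p ∈ V0 l.1 s.n
  · rw [s.wb_AlA A B l e]
    exact hp.iA.pull _ _ p (s.wb_R l e) i hi
  · rw [s.wb_AlB A B l e]
    exact hp.iB.pull _ _ p (s.wb_B l hq e) i hi

theorem CS_chain : P215Z.CS (Rf s.D.N) A - P215Z.CS (Bf s.D.N) B =
    ∑ l : Lg, Letters.sg l • P215Z.CS (Q0 s.n) (s.Al A B l) := by
  rw [P215Z.CS, P215Z.CS, chain s.D.hN _ _ fun q d h => by
    rw [csd_congr fun i hi => hp.agree _ h i (by rw [face_ne hi]; exact odd_two_mul_add_one _)]]
  refine Finset.sum_congr rfl fun l _ => ?_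
  rw [Qf, Bd_image, P215Z.CS]
  congr 2
  funext τ d
  rw [← csd_pull _ _ (sign_prm l), ← csd_pull _ _ (sign_prm l), ← dm_eq]
  by_cases e : τ ∈ V0 l.1 s.n
  · rw [if_pos (mem_Vl.2 e), csd_congr fun i _ => congrFun (s.wb_AlA A B l e) i]
  · rw [if_neg (mt mem_Vl.1 e), csd_congr fun i _ => congrFun (s.wb_AlB A B l e) i]

theorem CS_B : P215Z.CS (Bf s.D.N) B = 0 := by
  rw [stokes4 _ (Kof_Bf s.D.N ▸ hp.gB)]
  refine Finset.sum_eq_zero fun q hq => ?_
  have h1 : Function.update (cell q) 3 0 ∈ KB s.D.N := by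
    refine ⟨Coh.bot q, ((Coh.Outx.col_bot s.D.hN false).1 (mem_Bf.1 hq)).1, fun j => ?_⟩
    by_cases e : j = 3
    · simp [e, cell, Coh.bot]
    · simp [e, cell, Coh.bot]
  have h2 : B (cell q) 3 = 0 := by rw [hp.inv, if_pos rfl]
  have h3 : ∀ j, pd 3 (B (cell q) j) = 0 := fun j => by
    rw [hp.inv]
    split_ifs with e
    · exact pd_zero 3
    · exact hp.gB.indep _ h1 j 3 (by rw [Function.update_of_ne e]; exact odd_two_mul_add_one _)
        (by simp)
  have h4 : ∀ i j, i = 3 ∨ j = 3 → curv B (cell q) i j = 0 := by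
    rintro i j (rfl | rfl) <;> simp [curv, dd1, h2, h3, pd_zero, Ring.lie_def]
  have h5 : ∀ i j k l : Fin 4, eps4 i j k l = 0 ∨ (i = 3 ∨ j = 3) ∨ (k = 3 ∨ l = 3) := by decide
  rw [pairD, Finset.sum_eq_zero fun i _ => Finset.sum_eq_zero fun j _ => Finset.sum_eq_zero
    fun k _ => Finset.sum_eq_zero fun l _ => ?_, smul_zero, map_zero]
  rcases h5 i j k l with e | e | e
  · rw [e, zero_smul]
  · rw [h4 i j e, zero_mul, Matrix.trace_zero, smul_zero]
  · rw [h4 k l e, mul_zero, Matrix.trace_zero, smul_zero]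

theorem wb_step (ha : IsNilpotent a) (l : Lg) {p p' : Pt} (h : p ∈ V0 l.1 s.n)
    (h' : p' ∈ V0 l.1 s.n) :
    step (s.Al A B l) p p' = renU (prm l) (step A (dm s.D.N l p) (dm s.D.N l p')) := by
  rw [dm_eq, dm_eq, ← step_pull _ _ ha hp.iA (s.wb_R l h) (s.wb_R l h')]
  exact step_eq_of_eq (fun i _ => congrFun (s.wb_AlA A B l h) i) fun i _ => congrFun (s.wb_AlA A B l h') i

theorem G_some (ha : IsNilpotent a) (c : s.cv.C) (side : Bool) {k : ℕ} (hk : k ≤ s.cv.per c) :
    (s.CS (s.col c)).G (s.Al A B (s.col c, side)) (some ⟨c, rfl⟩) k = renU (prm (s.col c, side))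
      (s.whR A c side * holN (s.UU A (s.shS c side)) (s.cv.vx c) k) := by
  rw [whR, map_mul, map_mul, map_holL, map_holN, map_holN, holL_map, CurveSys.G, CurveSys.whis, Up]
  refine congrArg₂ (· * ·) (congrArg₂ (· * ·) ?_ ?_) ?_
  · refine holL_chain (fun v v' h => ?_) _ (s.prim_chain c)
    obtain ⟨h1, h2, h3⟩ := F1b.padj_mem (cx_V0 _ _) h
    rw [pe, pe, map_mul, s.wb_step hp ha (s.col c, side) h1 h2, s.wb_step hp ha (s.col c, side) h2 h3,
      dm_eq _ _ (midp v v'), affP_midp, ← dm_eq, ← dm_eq]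
  · exact holN_congr' 4 fun j _ => s.wb_step hp ha (s.col c, side)
      (F1b.upTo_mem (cx_V0 _ _) (s.stdP_mem c (Nat.zero_le _)) _)
      (F1b.upTo_mem (cx_V0 _ _) (s.stdP_mem c (Nat.zero_le _)) _)
  · refine holN_congr' k fun j hj => ?_
    rw [UU, ← s.FF_side, ← s.FF_side]
    exact s.wb_step hp ha (s.col c, side) (s.stdP_mem c (by omega)) (s.stdP_mem c (by omega))

theorem H_some (ha : IsNilpotent a) (c : s.cv.C) (side : Bool) :
    (s.CS (s.col c)).H (s.Al A B (s.col c, side)) (some ⟨c, rfl⟩) =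
      renU (prm (s.col c, side)) (s.HR A c side) := by
  have h0 := s.G_some hp ha c side (Nat.zero_le _)
  rw [CurveSys.G, holN, holN, mul_one, mul_one] at h0
  rw [CurveSys.H, h0, HR, map_mul, map_inv, ← s.G_some hp ha c side le_rfl]
  rfl

theorem H_none (ha : IsNilpotent a) (i : Kl) : (s.CS i).H (s.Al A B (i, true)) none = 1 := by
  have h0 : ∀ g, s.Al A B (i, true) (pl i g) = pull 1 ((s.D.N : ℤ) • org (i, true)) B (pl i g) :=
    fun g => s.wb_AlB A B (i, true) (pl_not i _ g)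
  have h : holN (step (s.Al A B (i, true))) (oP s.n i) (8 * s.n) = 1 := by
    refine hol_O (fun g => ?_) (fun x y => ?_) s.wb_pos
    · rw [h0, pull, hp.inv, if_pos (show (1 : Equiv.Perm (Fin 4)).symm 3 = 3 from rfl),
        PullAux.renM_zero]
    · rw [h0, h0, pull, pull, hp.inv, hp.inv (affP _ _ (pl i (x, 0)))]
      congr 3
      funext j
      by_cases e : j = 3
      · simp [e]
      · simp [e, affP, pl]
  rw [CurveSys.H, CurveSys.G]
  exact (congrArg (_ * · * _) h).trans (by rw [mul_one, mul_inv_cancel])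

end Setup
end Vale.Agent.P215Z.K
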