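import Vale.Agent.P260Z.Ob.Reg.Walls.A2

/-! R1b, the interface edges, the labelled grid and the extra curve -/

noncomputable section
set_option linter.unusedSectionVars false
variable [Vale.Agent.P215Z.K.Geom]
namespace Vale.Agent.P215Z.K.WA
open Classical

theorem cx_V0 (i : Kl) (n : ℕ) : Cx (V0 i n) := by
  rintro p ⟨h1, j, h2, h3, h4⟩ k c hk
  have h5 : j ≠ k := by
    rintro rfl
    obtain ⟨m, hm⟩ := hk
    omega
  exact ⟨cx_KdQ n p h1 k c hk, j, h2, h3, by rwa [face_ne h5]⟩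

theorem is3_V0 {i : Kl} {n : ℕ} {τ : Pt} {l : Fin 4} (h : Is3 n τ l) :
    τ ∈ V0 i n ↔ l ≠ kap i ∧ l ≠ 3 := by
  refine ⟨?_, fun h1 => ⟨h.mem, l, h1.1, h1.2, h.1⟩⟩
  rintro ⟨-, j, h2, h3, h4⟩
  have h5 : j = l := by
    by_contra h5
    obtain ⟨m, hm⟩ := (h.2 j h5).1
    omega
  exact h5 ▸ ⟨h2, h3⟩

theorem exists_prim {i : Kl} {n : ℕ} {v : Pt} (hv : v ∈ V0 i n) (he : ∀ j, Even (v j)) :
    ∃ l : List Pt, l.head? = some 0 ∧ l.getLast? = some v ∧ l.IsChain (PAdj (V0 i n)) := by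
  obtain ⟨⟨h1, -⟩, j, h2, h3, h4⟩ := hv
  obtain ⟨j', a1, a2, a3⟩ := two_walls i j
  have h5 := reach h2 h3 _ v rfl h1 h4 he
  have e : (Pi.single j (v j) : Pt) j' = 0 := Pi.single_eq_of_ne a1 _
  have h6 := reach (n := n) a2 a3 _ (Pi.single j (v j)) rfl (fun k => by
    by_cases e : k = j
    · rw [e, Pi.single_eq_same]; exact h1 j
    · rw [Pi.single_eq_of_ne e]; omega) (Or.inl e) fun k => by
    by_cases e : k = j
    · rw [e, Pi.single_eq_same]; exact he j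
    · rw [Pi.single_eq_of_ne e]; exact Even.zero
  rw [e, Pi.single_zero] at h6
  obtain ⟨l, b1, b2⟩ := List.exists_isChain_cons_of_relationReflTransGen (h6.trans h5)
  exact ⟨0 :: l, rfl, by rw [List.getLast?_eq_some_getLast (List.cons_ne_nil _ _), b2], b1⟩

theorem wv_mem {i : Kl} {n : ℕ} {p : Pt} (hp : p ∈ V0 i n) :
    wv p ∈ V0 i n ∧ ∀ j, Even (wv p j) := by
  refine ⟨(cx_V0 i n).isFace hp fun j => ?_, fun j => ?_⟩ <;> rw [wv] <;> split_ifs with h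
  · exact Or.inr ⟨h, by simp⟩
  · exact Or.inl rfl
  · exact h.sub_odd odd_one
  · exact Int.not_odd_iff_even.1 h

theorem wall {N : ℕ} (hN : 0 < N) {i : Kl} {x y : Pt} (hx : x ∈ Qc N (i, true))
    (hy : y ∉ Qc N (i, true)) (hU : y ∈ Uc N) (hs : IsStep (y - x)) :
    ∃ k, k ≠ kap i ∧ k ≠ 3 ∧ x k ≠ y k ∧ Is3 (3 * N) (x + y + 1 - (2 * N : ℤ) • org (i, true)) k := by
  obtain ⟨k, α, h1, h2, h3⟩ := step_form hs
  rw [mem_Qc] at hx hy
  have h4 : ∀ j, j ≠ k → y j = x j := fun j hj => sub_eq_zero.1 (h3 j hj)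
  have h5 := hx k
  rw [Pi.sub_apply] at h2
  have h6 : ¬ (N * org (i, true) k ≤ y k ∧ y k < N * org (i, true) k + 3 * N) := fun h =>
    hy fun j => by
      by_cases e : j = k
      · rwa [e]
      · rw [h4 j e]; exact hx j
  have h7 : Nb N (i, true) k y := ⟨by omega, fun j hj => by rw [h4 j hj]; exact hx j⟩
  refine ⟨k, fun e => nb_out hN (Or.inl e) h7 hU, fun e => nb_out hN (Or.inr e) h7 hU, by omega,
    ?_, fun j hj => ?_⟩
  · simp only [Pi.sub_apply, Pi.add_apply, Pi.one_apply, Pi.smul_apply, smul_eq_mul, mul_assoc]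
    omega
  · have := hx j
    simp only [Pi.sub_apply, Pi.add_apply, Pi.one_apply, Pi.smul_apply, smul_eq_mul, mul_assoc,
      h4 j hj, Int.odd_iff]
    omega

theorem face_sub (p t : Pt) (d : Fin 4) (s : Bool) : face p d s - t = face (p - t) d s := by
  funext j
  by_cases e : j = d
  · subst e
    rw [Pi.sub_apply, face_self, face_self, Pi.sub_apply]
    split_ifs <;> ring
  · rw [Pi.sub_apply, face_ne e, face_ne e, Pi.sub_apply]

theorem inG_of_corner {M : ℕ} {v w : Gp} (hv : InSq M v) (hw : Corner v w) : InG M w := by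
  simp only [InSq, Corner, InG] at *
  omega

variable (D : DiscData)

/-- an interface edge from the centre `κ` to the midpoint `μ` -/
def IEd (i : Kl) (G : F3) (κ μ : Gp) : Prop :=
  ∃ v u u', InSq D.M v ∧ κ = ctr v ∧ (Ed v μ u u' ∨ Ed v μ u' u) ∧
    D.F G u ∈ Qc D.N (i, true) ∧ D.F G u' ∉ Qc D.N (i, true) ∧ D.F G u' ∈ Uc D.N ∧
    ∀ w, Corner v w → D.F G w ∉ Qc D.N (i, true) → D.reg w = G

/-- the standard coordinates of a refined vertex -/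
def sp (i : Kl) (G : F3) (r : Gp) : Pt := ref (D.F G) r - (2 * D.N : ℤ) • org (i, true)

variable {D} {i : Kl} {G : F3} {κ μ : Gp}

theorem exists_ied {r r' : Gp} (h : GAdj r r') (h1 : InSq (2 * D.M) (lf r r'))
    (h2 : D.reg (crn (lf r r')) = G * FreeGroup.of i) (h3 : D.reg (crn (rt r r')) = G) :
    IEd D i G r r' ∨ IEd D i G r' r := by
  obtain ⟨v, μ, a1, a2, a3⟩ := exists_ed h h1 fun e => of_ne G i (by rw [← h2, e, h3])
  have c : Corner v (crn (lf r r')) ∧ Corner v (crn (rt r r')) :=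
    a3.elim (fun e => e.corner) fun e => e.corner.symm
  have key : IEd D i G (ctr v) μ := by
    rcases D.sq v a1 with b | ⟨g, j, b⟩
    · exact absurd (by rw [← h2, b _ c.1, ← b _ c.2, h3]) (of_ne G i)
    obtain ⟨-, b1⟩ := b _ c.1
    obtain ⟨b3, b2⟩ := b _ c.2
    rw [h2] at b1
    rw [h3] at b2
    rcases b2 with ⟨rfl, b2⟩ | ⟨rfl, b2⟩
    · rcases b1 with ⟨b1, -⟩ | ⟨b1, b4⟩
      · exact absurd b1 (of_ne _ _)
      · obtain rfl : i = j := FreeGroup.of_injective (mul_left_cancel b1)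
        exact ⟨v, _, _, a1, rfl, a3, b4, b2, b3, fun w hw hq =>
          ((b w hw).2.resolve_right fun e => hq e.2).1⟩
    · rcases b1 with ⟨b1, -⟩ | ⟨b1, -⟩
      · exact absurd b1 (of_of_ne _ _ _)
      · exact absurd b1 (of_ne _ _)
  rcases a2 with ⟨rfl, rfl⟩ | ⟨rfl, rfl⟩
  exacts [Or.inl key, Or.inr key]

theorem IEd.data (h : IEd D i G κ μ) : ∃ v u u', InSq D.M v ∧ κ = ctr v ∧ Corner v u' ∧
    D.F G u ∈ Qc D.N (i, true) ∧ D.F G u' ∉ Qc D.N (i, true) ∧ D.F G u' ∈ Uc D.N ∧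
    (∀ w, Corner v w → D.F G w ∉ Qc D.N (i, true) → D.reg w = G) ∧
    IsStep (D.F G u' - D.F G u) ∧ ref (D.F G) μ = D.F G u + D.F G u' + 1 ∧
    (ref (D.F G) κ = ref (D.F G) μ ∨
      ∃ d s, D.F G u d = D.F G u' d ∧ ref (D.F G) κ = face (ref (D.F G) μ) d s) := by
  obtain ⟨v, u, u', a1, rfl, a2, a3, a4, a5, a6⟩ := h
  have hne : D.F G u ≠ D.F G u' := fun e => a4 (e ▸ a3)
  have hs : Sh (D.F G) v := D.shape G v a1
  rcases a2 with e | e
  · exact ⟨v, u, u', a1, rfl, e.corner.2, a3, a4, a5, a6, e.step hs, e.ref_eq _, e.ctr_face hs hne⟩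
  · refine ⟨v, u, u', a1, rfl, e.corner.1, a3, a4, a5, a6, step_symm (e.step hs),
      by rw [e.ref_eq, add_comm (D.F G u')], (e.ctr_face hs hne.symm).imp_right ?_⟩
    rintro ⟨d, s, b1, b2⟩
    exact ⟨d, s, b1.symm, b2⟩

theorem IEd.is3 (h : IEd D i G κ μ) : ∃ k, k ≠ kap i ∧ k ≠ 3 ∧ Is3 (3 * D.N) (sp D i G μ) k ∧
    (sp D i G κ = sp D i G μ ∨ ∃ d s, d ≠ k ∧ sp D i G κ = face (sp D i G μ) d s) := by
  obtain ⟨v, u, u', -, -, -, a3, a4, a5, -, a7, a8, a9⟩ := h.data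
  obtain ⟨k, b1, b2, b3, b4⟩ := wall D.hN a3 a4 a5 a7
  refine ⟨k, b1, b2, by rwa [sp, a8], a9.imp (fun e => by rw [sp, sp, e]) ?_⟩
  rintro ⟨d, s, c1, c2⟩
  exact ⟨d, s, fun e => b3 (e ▸ c1), by rw [sp, sp, c2, face_sub]⟩

theorem IEd.mem (h : IEd D i G κ μ) : sp D i G κ ∈ V0 i (3 * D.N) ∧ sp D i G μ ∈ V0 i (3 * D.N) := by
  obtain ⟨k, b1, b2, b3, b4⟩ := h.is3
  have h1 := (is3_V0 b3).2 ⟨b1, b2⟩
  refine ⟨?_, h1⟩
  rcases b4 with e | ⟨d, s, c1, e⟩ <;> rw [e]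
  · exact h1
  · exact cx_V0 _ _ _ h1 d s (b3.2 d c1).1

theorem IEd.near (h : IEd D i G κ μ) {r : Gp} (hr : r = κ ∨ r = μ) : ∃ u, InG D.M u ∧
    D.reg u = G ∧ D.F G u ∉ Qc D.N (i, true) ∧ Ne (ref (D.F G) r) (D.F G u) := by
  obtain ⟨v, u, u', a1, -, a2, -, a4, -, a6, a7, a8, a9⟩ := h.data
  have h1 : Ne (ref (D.F G) μ) (D.F G u') := a8 ▸ mid_ne a7
  refine ⟨u', inG_of_corner a1 a2, a6 _ a2 a4, a4, ?_⟩
  rcases hr with rfl | rfl
  · rcases a9 with e | ⟨d, s, c1, e⟩ <;> rw [e]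
    · exact h1
    · intro j
      by_cases e : j = d
      · subst e
        rw [face_self, a8]
        simp only [Pi.add_apply, Pi.one_apply, cell, abs_le]
        split_ifs <;> omega
      · rw [face_ne e]; exact h1 j
  · exact h1

theorem IEd.of_near (h : IEd D i G κ μ) {r : Gp} (hr : r = κ ∨ r = μ) {q : Pt}
    (hq : q ∉ Qc D.N (i, true)) (hn : Ne (ref (D.F G) r) q) :
    ∃ u, InG D.M u ∧ D.reg u = G ∧ D.F G u = q := by
  obtain ⟨v, u, u', a1, a0, a2, a3, a4, -, a6, a7, a8, -⟩ := h.data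
  rcases hr with rfl | rfl
  · rw [a0] at hn
    obtain ⟨w, b1, rfl⟩ := Sh.ne_ctr (D.shape G v a1) hn
    exact ⟨w, inG_of_corner a1 b1, a6 _ b1 hq, rfl⟩
  · rw [a8] at hn
    rcases ne_mid a7 hn with rfl | rfl
    · exact absurd a3 hq
    · exact ⟨u', inG_of_corner a1 a2, a6 _ a2 a4, rfl⟩

theorem IEd.sep {G' : F3} {κ' μ' r r' : Gp} (h : IEd D i G κ μ) (h' : IEd D i G' κ' μ')
    (hr : r = κ ∨ r = μ) (hr' : r' = κ' ∨ r' = μ') (e : sp D i G r = sp D i G' r') : G = G' := by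
  obtain ⟨u, a1, a2, a3, a4⟩ := h.near hr
  rw [sub_left_inj.1 e] at a4
  obtain ⟨u', b1, b2, b3⟩ := h'.of_near hr' a3 a4
  rw [← a2, ← b2]
  exact D.sep u u' a1 b1 (by rw [a2, b2, b3])

theorem IEd.thru {μ' : Gp} (h : IEd D i G κ μ) (h' : IEd D i G κ μ') (hμ : μ ≠ μ')
    (e : sp D i G μ = sp D i G μ') : sp D i G κ = sp D i G μ := by
  obtain ⟨v, u, u', a1, rfl, a2, a3, a4, -⟩ := h
  obtain ⟨v', w, w', -, b1, b2, -⟩ := h'
  obtain rfl : v = v' := by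
    simp only [ctr, Prod.mk.injEq] at b1
    exact Prod.ext (by omega) (by omega)
  have hne : D.F G u ≠ D.F G u' := fun e => a4 (e ▸ a3)
  have hs : Sh (D.F G) v := D.shape G v a1
  rw [sp, sp, sub_left_inj] at e ⊢
  rcases a2 with c | c <;> rcases b2 with c' | c'
  exacts [c.thru c' hs hne hμ e, c.thru c' hs hne hμ e, c.thru c' hs hne.symm hμ e,
    c.thru c' hs hne.symm hμ e]

theorem IEd.not_odd (h : IEd D i G κ μ) : ¬ Odd (κ.1 + κ.2) := by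
  obtain ⟨v, -, -, -, rfl, -⟩ := h
  simp only [ctr, Int.odd_iff]
  omega

/-! ### the labelled grid -/

theorem box_shape {N : ℕ} {l : Lg} {x y z w : Pt} (h : Shape x y z w) :
    (x ∈ Qc N l → w ∈ Qc N l → y ∈ Qc N l ∨ z ∈ Qc N l) ∧
      (y ∈ Qc N l → z ∈ Qc N l → x ∈ Qc N l ∨ w ∈ Qc N l) := by
  rcases h with ⟨a, b, -, -, h, rfl, rfl, rfl⟩ | ⟨rfl, rfl, -⟩ | ⟨rfl, rfl, -⟩ | ⟨rfl, rfl, -⟩ |
    ⟨rfl, rfl, -⟩
  · refine ⟨fun h1 h2 => Or.inl ?_, fun h1 h2 => Or.inl ?_⟩ <;> rw [mem_Qc] at h1 h2 ⊢ <;>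
      intro k <;> have a1 := h1 k <;> have a2 := h2 k <;> have a3 := h k <;>
      simp only [Pi.add_apply] at a1 a2 ⊢ <;> omega
  all_goals tauto

variable (D)

theorem two_lab {v : Gp} (hv : InSq D.M v) : ∃ x y, ∀ w, Corner v w → D.reg w = x ∨ D.reg w = y := by
  rcases D.sq v hv with h | ⟨g, i, h⟩
  · exact ⟨_, D.reg v, fun w hw => Or.inl (h w hw)⟩
  · exact ⟨_, _, fun w hw => (h w hw).2.imp And.left And.left⟩

theorem no_checker {v : Gp} (hv : InSq D.M v) (h1 : D.reg (v + (1, 1)) = D.reg v)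
    (h2 : D.reg (v + (0, 1)) = D.reg (v + (1, 0))) : D.reg (v + (1, 1)) = D.reg (v + (0, 1)) := by
  have c0 : Corner v v := by simp [Corner]
  have c1 : Corner v (v + (1, 0)) := by simp [Corner]
  have c2 : Corner v (v + (0, 1)) := by simp [Corner]
  have c3 : Corner v (v + (1, 1)) := by simp [Corner]
  rcases D.sq v hv with h | ⟨g, i, h⟩
  · rw [h _ c3, h _ c2]
  · have k : ∀ w, Corner v w → (D.F g w ∈ Qc D.N (i, true) ↔ D.reg w ≠ g) := fun w hw => by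
      rcases (h w hw).2 with ⟨a, b⟩ | ⟨a, b⟩
      · exact iff_of_false b fun e => e a
      · exact iff_of_true b (a ▸ of_ne g i)
    have b := box_shape (N := D.N) (l := (i, true)) (D.shape g v hv)
    rw [k _ c0, k _ c1, k _ c2, k _ c3, h1, h2] at b
    rw [h1, h2]
    rcases (h _ c0).2 with ⟨a, -⟩ | ⟨a, -⟩ <;> rcases (h _ c1).2 with ⟨a', -⟩ | ⟨a', -⟩
    · rw [a, a']
    · have := of_ne g i
      rw [a, a'] at b
      tauto
    · have := of_ne g i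
      rw [a, a'] at b
      tauto
    · rw [a, a']

/-- the labelled grid of a discretised disc -/
def grid : LabGrid F3 where
  m := 2 * D.M
  hm := by have := D.hM; omega
  lab f := D.reg (crn f)
  dir x y := ∃ i, x = y * FreeGroup.of i
  lab0 := 1
  asym := by
    rintro x y ⟨i, rfl⟩ ⟨j, h⟩
    exact of_of_ne y i j h.symm
  total := by
    intro f f' h h' ha hne
    have h1 : InSq D.M (sqOf f) := by
      simp only [InSq, sqOf, Nat.cast_mul, Nat.cast_ofNat] at h ⊢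
      omega
    have h2 : Corner (sqOf f) (crn f) := by
      simp only [Corner, sqOf, crn]
      omega
    have h3 : Corner (sqOf f) (crn f') := by
      have h4 : crn f ≠ crn f' := fun e => hne (by rw [e])
      obtain ⟨s, t⟩ := f
      rcases ha with rfl | rfl | rfl | rfl <;>
        simp only [Corner, sqOf, crn, Prod.mk_add_mk, Prod.mk_sub_mk, ne_eq, Prod.mk.injEq] at h4 ⊢ <;>
        omega
    rcases D.sq _ h1 with b | ⟨g, i, b⟩
    · exact absurd ((b _ h2).trans (b _ h3).symm) hne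
    · rcases (b _ h2).2 with ⟨a, -⟩ | ⟨a, -⟩ <;> rcases (b _ h3).2 with ⟨a', -⟩ | ⟨a', -⟩
      · exact absurd (a.trans a'.symm) hne
      · exact Or.inr ⟨i, by rw [a, a']⟩
      · exact Or.inl ⟨i, by rw [a, a']⟩
      · exact absurd (a.trans a'.symm) hne
  bd := by
    intro f h hb
    refine (D.bd _ ?_).1
    simp only [InSq, OnBd, InG, crn, Nat.cast_mul, Nat.cast_ofNat] at h hb ⊢
    omega
  two := by
    rintro ⟨s, t⟩ h h'
    have h1 : InSq D.M (s / 2, t / 2) := by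
      simp only [InSq, Nat.cast_mul, Nat.cast_ofNat] at h ⊢
      omega
    obtain ⟨x, y, h2⟩ := two_lab D h1
    refine ⟨⟨x, y, fun f hf => h2 _ ?_⟩, ?_⟩
    · simp only [Corner, crn] at hf ⊢
      omega
    · rintro ⟨a1, a2, a3⟩
      apply a3
      simp only [crn, Prod.mk_sub_mk, sub_zero, sub_add_cancel] at a1 a2 ⊢
      rcases Int.emod_two_eq_zero_or_one s with e | e
      · rw [show (s + 1) / 2 = s / 2 by omega]
      have e1 : (s + 1) / 2 = s / 2 + 1 := by omega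
      rcases Int.emod_two_eq_zero_or_one t with e' | e'
      · rw [a2, show (t + 1) / 2 = t / 2 by omega]
      have e2 : (t + 1) / 2 = t / 2 + 1 := by omega
      rw [e1, e2] at a1 a2 ⊢
      simpa using no_checker D h1 (by simpa using a1) (by simpa using a2)

/-! ### the extra curve -/

/-- points of the plane of the extra curve -/
def pP (i : Kl) (r : Gp) : Pt := fun j => if j = kap i then r.1 else if j = 3 then r.2 else 1

/-- the boundary of the square, starting at `(1, 0)` -/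
def bP (n k : ℕ) : Gp := if k + 1 ≤ 8 * n then bdG (2 * n) (k + 1) else (1, 0)

theorem oP_eq (n : ℕ) (i : Kl) (k : ℕ) : oP n i k = pP i (bP n k) := rfl

theorem pP_kap (i : Kl) (r : Gp) : pP i r (kap i) = r.1 := if_pos rfl

theorem pP_three (i : Kl) (r : Gp) : pP i r 3 = r.2 := by simp [pP, (kap_ne i).symm]

theorem pP_notMem (i : Kl) (r : Gp) (n : ℕ) : pP i r ∉ V0 i n := by
  rintro ⟨-, j, h1, h2, h3⟩
  rw [pP, if_neg h1, if_neg h2] at h3
  omega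

theorem is3_h {n : ℕ} (hn : 0 < n) (i : Kl) {r : Gp} (h1 : r.2 = 0 ∨ r.2 = 2 * n)
    (h2 : r.1 % 2 = 1 ∧ 0 ≤ r.1 ∧ r.1 ≤ 2 * n) : Is3 n (pP i r) 3 := by
  refine ⟨by rwa [pP_three], fun j hj => ?_⟩
  rw [pP, if_neg hj, Int.odd_iff]
  split_ifs <;> omega

theorem is3_v {n : ℕ} (hn : 0 < n) (i : Kl) {r : Gp} (h1 : r.1 = 0 ∨ r.1 = 2 * n)
    (h2 : r.2 % 2 = 1 ∧ 0 ≤ r.2 ∧ r.2 ≤ 2 * n) : Is3 n (pP i r) (kap i) := by
  refine ⟨by rwa [pP_kap], fun j hj => ?_⟩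
  rw [pP, if_neg hj, Int.odd_iff]
  split_ifs <;> omega

theorem face_h (i : Kl) {r r' : Gp} (h1 : r'.2 = r.2) (h2 : r'.1 = r.1 + 1 ∨ r'.1 = r.1 - 1) :
    ∃ s, pP i r' = face (pP i r) (kap i) s := by
  refine ⟨decide (r'.1 = r.1 + 1), funext fun j => ?_⟩
  by_cases e : j = kap i
  · rw [e, face_self, pP_kap, pP_kap]
    simp only [decide_eq_true_eq]
    split_ifs <;> omega
  · rw [face_ne e, pP, pP, if_neg e, if_neg e, h1]

theorem face_v (i : Kl) {r r' : Gp} (h1 : r'.1 = r.1) (h2 : r'.2 = r.2 + 1 ∨ r'.2 = r.2 - 1) :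
    ∃ s, pP i r' = face (pP i r) 3 s := by
  refine ⟨decide (r'.2 = r.2 + 1), funext fun j => ?_⟩
  by_cases e : j = 3
  · rw [e, face_self, pP_three, pP_three]
    simp only [decide_eq_true_eq]
    split_ifs <;> omega
  · rw [face_ne e, pP, pP, if_neg e, if_neg e, h1]

theorem pP_step {n : ℕ} (hn : 0 < n) (i : Kl) {r r' : Gp}
    (h : (r'.2 = r.2 ∧ (r.2 = 0 ∨ r.2 = 2 * n) ∧ (r'.1 = r.1 + 1 ∨ r'.1 = r.1 - 1) ∧
        0 ≤ r.1 ∧ r.1 ≤ 2 * n ∧ 0 ≤ r'.1 ∧ r'.1 ≤ 2 * n) ∨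
      (r'.1 = r.1 ∧ (r.1 = 0 ∨ r.1 = 2 * n) ∧ (r'.2 = r.2 + 1 ∨ r'.2 = r.2 - 1) ∧
        0 ≤ r.2 ∧ r.2 ≤ 2 * n ∧ 0 ≤ r'.2 ∧ r'.2 ≤ 2 * n)) :
    (∃ l d s, Is3 n (pP i r) l ∧ d ≠ l ∧ pP i r' = face (pP i r) d s) ∨
      ∃ l d s, Is3 n (pP i r') l ∧ d ≠ l ∧ pP i r = face (pP i r') d s := by
  rcases h with h | h
  · rcases Int.emod_two_eq_zero_or_one r.1 with e | e
    · obtain ⟨s, hs⟩ := face_h i (r := r') (r' := r) (by omega) (by omega)
      exact Or.inr ⟨3, _, s, is3_h hn i (by omega) (by omega), kap_ne i, hs⟩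
    · obtain ⟨s, hs⟩ := face_h i (r := r) (r' := r') (by omega) (by omega)
      exact Or.inl ⟨3, _, s, is3_h hn i (by omega) (by omega), kap_ne i, hs⟩
  · rcases Int.emod_two_eq_zero_or_one r.2 with e | e
    · obtain ⟨s, hs⟩ := face_v i (r := r') (r' := r) (by omega) (by omega)
      exact Or.inr ⟨_, 3, s, is3_v hn i (by omega) (by omega), (kap_ne i).symm, hs⟩
    · obtain ⟨s, hs⟩ := face_v i (r := r) (r' := r') (by omega) (by omega)
      exact Or.inl ⟨_, 3, s, is3_v hn i (by omega) (by omega), (kap_ne i).symm, hs⟩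

theorem bP_step {n k : ℕ} (hk : k < 8 * n) :
    ((bP n (k + 1)).2 = (bP n k).2 ∧ ((bP n k).2 = 0 ∨ (bP n k).2 = 2 * n) ∧
        ((bP n (k + 1)).1 = (bP n k).1 + 1 ∨ (bP n (k + 1)).1 = (bP n k).1 - 1) ∧
        0 ≤ (bP n k).1 ∧ (bP n k).1 ≤ 2 * n ∧ 0 ≤ (bP n (k + 1)).1 ∧ (bP n (k + 1)).1 ≤ 2 * n) ∨
      ((bP n (k + 1)).1 = (bP n k).1 ∧ ((bP n k).1 = 0 ∨ (bP n k).1 = 2 * n) ∧
        ((bP n (k + 1)).2 = (bP n k).2 + 1 ∨ (bP n (k + 1)).2 = (bP n k).2 - 1) ∧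
        0 ≤ (bP n k).2 ∧ (bP n k).2 ≤ 2 * n ∧ 0 ≤ (bP n (k + 1)).2 ∧ (bP n (k + 1)).2 ≤ 2 * n) := by
  unfold bP bdG
  split_ifs <;> dsimp only <;> omega

theorem bP_ne {n k : ℕ} (hk : k + 1 < 8 * n) : bP n k ≠ bP n (k + 2) := by
  unfold bP bdG
  split_ifs <;> simp only [ne_eq, Prod.mk.injEq] <;> omega

theorem bP_zero {n : ℕ} (hn : 0 < n) : bP n 0 = (1, 0) := by
  rw [bP, if_pos (by omega), bdG, if_pos (by omega)]
  rfl

theorem bP_per (n : ℕ) : bP n (8 * n) = (1, 0) := if_neg (by omega)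

end Vale.Agent.P215Z.K.WA
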