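import Vale.Agent.P260Z.Ob.Reg.Defs
import Vale.Agent.P260Z.Ob.Frm.Poin

/-! R1b, lattice part: the neighbours of the plumbing cubes -/

noncomputable section
set_option linter.unusedSectionVars false
variable [Vale.Agent.P215Z.K.Geom]
namespace Vale.Agent.P215Z.K.WA
open Classical Coh.Outx

variable {N : ℕ} {l : Lg} {j : Fin 4} {p q : Pt}

/-- `q` is next to the cube of the leg `l` in the direction `j` -/
def Nb (N : ℕ) (l : Lg) (j : Fin 4) (q : Pt) : Prop :=
  (q j = N * org l j - 1 ∨ q j = N * org l j + 3 * N) ∧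
    ∀ k, k ≠ j → N * org l k ≤ q k ∧ q k < N * org l k + 3 * N

theorem mem_Qc : q ∈ Qc N l ↔ ∀ k, N * org l k ≤ q k ∧ q k < N * org l k + 3 * N := by
  refine forall_congr' fun k => ?_
  rw [Pi.add_apply, mul_add, Pi.ofNat_apply, mul_comm (N : ℤ) 3]

theorem Qc_disj {l l' : Lg} (h : q ∈ Qc N l) (h' : q ∈ Qc N l') : l = l' := by
  have h1 : ∀ l l' : Lg, l = l' ∨ ∃ j, (org l + 3) j ≤ org l' j ∨ (org l' + 3) j ≤ org l j :=
    Gx.org_gap3
  exact (h1 l l').resolve_right (not_both h h')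

theorem nb_out (hN : 0 < N) (hj : j = kap l.1 ∨ j = 3) (h : Nb N l j q) : q ∉ Uc N := by
  rintro ⟨h1, h2⟩
  rcases hj with rfl | rfl
  · have h3 : ∀ l : Lg, (∃ c ∈ caves, c.2 (kap l.1) = org l (kap l.1) ∧
        c.1 (kap l.1) + 1 ≤ c.2 (kap l.1) ∧
        ∀ k, k ≠ kap l.1 → c.1 k ≤ org l k ∧ org l k + 3 ≤ c.2 k) ∧
        ∃ c ∈ caves, c.1 (kap l.1) = org l (kap l.1) + 3 ∧ c.1 (kap l.1) + 1 ≤ c.2 (kap l.1) ∧
        ∀ k, k ≠ kap l.1 → c.1 k ≤ org l k ∧ org l k + 3 ≤ c.2 k :=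
      fun l => ⟨Gx.end_lo l, Gx.end_hi l⟩
    have h4 : ∀ c : Pt × Pt, (∀ k, k ≠ kap l.1 → c.1 k ≤ org l k ∧ org l k + 3 ≤ c.2 k) →
        N * c.1 (kap l.1) ≤ q (kap l.1) ∧ q (kap l.1) < N * c.2 (kap l.1) → InBox N c.1 c.2 q := by
      intro c hc hk k
      by_cases e : k = kap l.1
      · rw [e]; exact hk
      · have a1 := mul_mono N (hc k e).1
        have a2 := mul_mono N (hc k e).2
        have a3 := h.2 k e
        rw [mul_add] at a2
        omega
    rcases h.1 with h5 | h5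
    · obtain ⟨c, hc, a1, a2, a3⟩ := (h3 l).1
      have a4 := mul_mono N a2
      rw [mul_add] at a4
      refine h2 c hc (h4 c a3 ?_)
      rw [← a1] at h5
      omega
    · obtain ⟨c, hc, a1, a2, a3⟩ := (h3 l).2
      have a4 := mul_mono N a2
      have a5 : N * c.1 (kap l.1) = N * org l (kap l.1) + N * 3 := by rw [a1, mul_add]
      rw [mul_add] at a4
      refine h2 c hc (h4 c a3 ?_)
      omega
  · have h3 : (N : ℤ) * 0 ≤ q 3 ∧ q 3 < N * 3 := Gx.hi_three ▸ h1 3
    have h4 := h.1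
    rw [Gx.org_three] at h4
    omega

theorem nb_in (hN : 0 < N) (hj : j ≠ kap l.1) (hj' : j ≠ 3) (h : Nb N l j q) :
    q ∈ Uc N ∧ ∀ l', q ∉ Qc N l' := by
  have h1 : InBox N (org l - ee j) (org l + 3 + ee j) q := fun k => by
    by_cases e : k = j
    · subst e
      have := h.1
      simp only [ee, Pi.sub_apply, Pi.add_apply, Pi.single_eq_same, Pi.ofNat_apply, mul_add,
        mul_sub]
      omega
    · have := h.2 k e
      simp only [ee, Pi.sub_apply, Pi.add_apply, Pi.single_eq_of_ne e, Pi.ofNat_apply, mul_add,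
        mul_sub]
      omega
  have h2 : ∀ (l : Lg) (j : Fin 4), j ≠ kap l.1 → j ≠ 3 →
      (∀ k, (0 : Pt) k ≤ (org l - ee j) k ∧ (org l + 3 + ee j) k ≤ boxHi k) ∧
      (∀ c ∈ caves, ∃ k, (org l + 3 + ee j) k ≤ c.1 k ∨ c.2 k ≤ (org l - ee j) k) ∧
      ∀ l', l' = l ∨ ∃ k, (org l + 3 + ee j) k ≤ org l' k ∨ (org l' + 3) k ≤ (org l - ee j) k := by
    intro l j a b
    have hj := Gx.base_iff.1 ⟨a, b⟩
    have e : ∀ k, ee j k = if k = j then 1 else 0 := fun k => by simp [ee, Pi.single_apply]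
    simp only [Pi.add_apply, Pi.sub_apply, Pi.zero_apply, Pi.ofNat_apply, e]
    refine ⟨fun k => ?_, fun c hc => ?_, fun l' => or_iff_not_imp_left.2 fun h => ?_⟩
    · have := Gx.org_bound l k
      have := Gx.org_side l hj
      split_ifs with h
      · subst h
        omega
      · omega
    · rcases Gx.org_free l c hc with h | ⟨k, -, h⟩
      · exact ⟨1, by rw [if_neg (by rcases hj with rfl | rfl <;> decide)]; omega⟩
      · exact ⟨k, by split_ifs <;> omega⟩
    · obtain ⟨k, -, h⟩ := Gx.org_gap l l' (Ne.symm h)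
      exact ⟨k, by split_ifs <;> omega⟩
  obtain ⟨a1, a2, a3⟩ := h2 l j hj hj'
  refine ⟨⟨inBox_mono h1 a1, fun c hc h3 => not_both h1 h3 (a2 c hc)⟩, fun l' h3 => ?_⟩
  rcases a3 l' with rfl | a4
  · have := mem_Qc.1 h3 j
    have := h.1
    omega
  · exact not_both h1 h3 a4

theorem ex_in (hN : 0 < N) (l : Lg) (hp : ∀ j, 0 ≤ p j ∧ p j ≤ 2 * (3 * N : ℕ)) :
    ∃ q ∈ Qc N l, ∀ j, |dm N l p j - cell q j| ≤ 1 := by
  refine ⟨fun j => (if p (prm l j) = 6 * N then 3 * (N : ℤ) - 1 else p (prm l j) / 2) + N * org l j,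
    mem_Qc.2 fun j => ?_, fun j => ?_⟩
  · have := hp (prm l j)
    split_ifs <;> omega
  · have := hp (prm l j)
    simp only [dm, cell, mul_assoc, abs_le]
    split_ifs <;> omega

theorem ex_nb (hN : 0 < N) (l : Lg) (hp : ∀ j, 0 ≤ p j ∧ p j ≤ 2 * (3 * N : ℕ))
    (hj : p (prm l j) = 0 ∨ p (prm l j) = 2 * (3 * N : ℕ)) :
    ∃ q, Nb N l j q ∧ ∀ k, |dm N l p k - cell q k| ≤ 1 := by
  obtain ⟨q, h1, h2⟩ := ex_in hN l hp
  refine ⟨Function.update q j (if p (prm l j) = 0 then N * org l j - 1 else N * org l j + 3 * N),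
    ⟨?_, fun k hk => ?_⟩, fun k => ?_⟩
  · rw [Function.update_self]
    split_ifs
    exacts [Or.inl rfl, Or.inr rfl]
  · rw [Function.update_of_ne hk]
    exact mem_Qc.1 h1 k
  · by_cases e : k = j
    · subst e
      simp only [dm, cell, mul_assoc, abs_le, Function.update_self]
      split_ifs <;> omega
    · simpa only [cell, Function.update_of_ne e] using h2 k

theorem ppi_wall : ∀ (i : Kl) (j : Fin 4), ppi i (ppi i j) = j ∧
    ((j ≠ kap i ∧ j ≠ 3) ↔ (ppi i j = kap i ∨ ppi i j = 3)) := by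
  intro i
  simp only [Gx.kap_eq, Gx.ppi_eq]
  decide

theorem two_walls : ∀ (i : Kl) (j : Fin 4), ∃ j', j' ≠ j ∧ j' ≠ kap i ∧ j' ≠ 3 := by
  intro i
  simp only [Gx.kap_eq]
  decide

theorem kap_ne : ∀ i : Kl, kap i ≠ 3 := Gx.kap_ne3

/-- A vertex of the wall is joined to the axis inside a face. -/
theorem reach {i : Kl} {n : ℕ} {j : Fin 4} (h1 : j ≠ kap i) (h2 : j ≠ 3) (m : ℕ) :
    ∀ v : Pt, (∑ k, v k).toNat = m → (∀ k, 0 ≤ v k ∧ v k ≤ 2 * n) → (v j = 0 ∨ v j = 2 * n) →
      (∀ k, Even (v k)) → Relation.ReflTransGen (PAdj (V0 i n)) (Pi.single j (v j)) v := by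
  induction m using Nat.strong_induction_on with
  | _ m ih =>
    intro v hm hb hj he
    by_cases h : ∀ k, k ≠ j → v k = 0
    · have : Pi.single j (v j) = v := funext fun k => by
        by_cases e : k = j
        · rw [e, Pi.single_eq_same]
        · rw [Pi.single_eq_of_ne e, h k e]
      rw [this]
    · push Not at h
      obtain ⟨k, hk, hk0⟩ := h
      have e1 : ∀ a, (v - 2 • ee k : Pt) a = if a = k then v a - 2 else v a := fun a => by
        by_cases e : a = k <;> simp [ee, e]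
      have hs : ∑ a, (v - 2 • ee k : Pt) a = ∑ a, v a - 2 := by
        simp [ee, Finset.sum_sub_distrib, ← Finset.mul_sum]
      have hk2 : 2 ≤ v k := by
        have := hb k
        have := Int.even_iff.1 (he k)
        omega
      have hs2 : v k ≤ ∑ a, v a :=
        Finset.single_le_sum (fun a _ => (hb a).1) (Finset.mem_univ k)
      have e2 : (v - 2 • ee k : Pt) j = v j := by rw [e1, if_neg hk.symm]
      have he' : ∀ a, Even ((v - 2 • ee k : Pt) a) := fun a => by
        have := Int.even_iff.1 (he a)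
        rw [e1, Int.even_iff]
        split_ifs <;> omega
      have h3 := ih _ (by rw [hs]; omega) (v - 2 • ee k) rfl (fun a => by
        have := hb a
        rw [e1]
        split_ifs with e
        · subst e; omega
        · exact this) (by rwa [e2]) he'
      rw [e2] at h3
      refine h3.tail ⟨he', ⟨⟨fun a => ?_, j, ?_⟩, j, h1, h2, ?_⟩, k, Or.inl (by simp)⟩
      · have := hb a
        rw [midp, e1]
        split_ifs with e
        · subst e; omega
        · omega
      · rw [midp, e2]; omega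
      · rw [midp, e2]; omega

theorem of_ne (g : F3) (i : Kl) : g * FreeGroup.of i ≠ g := by simp

theorem of_of_ne (g : F3) (i j : Kl) : g * FreeGroup.of i * FreeGroup.of j ≠ g := by
  intro h
  have h1 := congrArg (FreeGroup.lift fun _ : Kl => Multiplicative.ofAdd (1 : ℤ)) h
  simp only [map_mul, FreeGroup.lift_apply_of, mul_assoc, mul_eq_left] at h1
  exact absurd h1 (by decide)

end Vale.Agent.P215Z.K.WA
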